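import Vale.Agent.P254.SP.H567.StmtLim
import Vale.Agent.P254.SP.H351.Eq5
import Vale.Agent.P254.SP.H151.Top0
import Vale.Agent.P254.SP.H151.Top1
import Vale.Agent.P254.SP.POS.Fin

/-!
P254 / P248, line (SP_0) (helper567): composition of all landed rows. The only remaining hypothesis
is `E72.StmtStab P` (the functional inequality in Gauss space with a positive remainder).
-/

set_option autoImplicit false

open MeasureTheory Matrix

namespace Vale.Agent.P254.SP567

open Vale.Agent.P254.S Vale.Agent.P254.SP

theorem stmtS0_of_stab {P : F1} (hS : E72.StmtStab P) : StmtS 0 :=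
  SP151.stmtS0_of (Eq630.stmtFin_of_stab hS) Pos.stmtPos S.H979.stmtPush

theorem stmtEq_of_stab {P : F1} (hS : E72.StmtStab P) : Eq657.StmtEq :=
  Eq351.stmtEq_of (stmtLim P) hS Pos.stmtPos S.H979.stmtPush

/-- P254, first question, from `StmtStab` -/
theorem isoConst_full_of_stab {P : F1} (hS : E72.StmtStab P) (n : ℕ) (hn : 1 ≤ n)
    (K S : Set (Fin n → ℝ)) (hK : IsConvexBody K) (hSS : IsSimplex S) :
    isoConst K ≤ isoConst S ∧ (isoConst K = isoConst S → IsSimplex K) :=
  SP151.isoConst_full (stmtS0_of_stab hS) (stmtEq_of_stab hS) n hn K S hK hSS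

/-- P248, second question, from `StmtStab` -/
theorem mahler_full_of_stab {P : F1} (hS : E72.StmtStab P) {n : ℕ} {K : Set (P248.H432.E n)}
    (hK : P248.IsConvexBody K) : P248.H432.MahlerFor K :=
  SP151.mahler_full (stmtS0_of_stab hS) (stmtEq_of_stab hS) hK

end Vale.Agent.P254.SP567
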